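import Vale.Agent.Lib.P174.Abelian

namespace Vale.Agent.Results.P174.AbelianByLocallyIndicable

open Vale.Agent.Lib.P174

universe u

/-- Howie's conjecture holds, unconditionally, for every group `G` that has an abelian normal
subgroup `N` with locally indicable quotient `G / N`: every finite system over `G` whose
exponent-sum matrix has full row rank over `ℚ` is solvable over `G`. -/
theorem result (G : Type u) [Group G] (N : Subgroup G) [N.Normal]
    (hN : ∀ a ∈ N, ∀ b ∈ N, a * b = b * a) (hQ : LocallyIndicable (G ⧸ N))
    (m n : ℕ) (w : Fin m → Monoid.Coprod G (FreeGroup (Fin n)))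
    (hw : ((expMatrix w).map (Int.cast : ℤ → ℚ)).rank = m) :
    Function.Injective
      ((QuotientGroup.mk' (Subgroup.normalClosure (Set.range w))).comp Monoid.Coprod.inl) := by
  let _ : CommGroup N :=
    { (inferInstance : Group N) with mul_comm := fun a b => Subtype.ext (hN a a.2 b b.2) }
  have hNk : HowieOver ℚ N := howieOver_of_comm ℚ N
  have hker : (QuotientGroup.mk' N).ker = N := QuotientGroup.ker_mk' N
  have hG : HowieOver ℚ G :=
    howieOver_of_locallyIndicable ℚ hQ (QuotientGroup.mk' N) (hker.symm ▸ hNk)
  exact (solvableOver_iff_injective w).1 (hG m n w hw)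

end Vale.Agent.Results.P174.AbelianByLocallyIndicable
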