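import Vale.Agent.Lib.P174.Fox
import Vale.Agent.Lib.P174.LocInd
import Vale.Agent.Lib.P174.Content
import Vale.Agent.Lib.P174.Abelian

namespace Vale.Agent.Results.P174.Combined

open Vale.Agent.Lib.P174 Monoid.Coprod

universe u v w a b

/-- Four results on Howie's conjecture in one statement.
(1) Relative form of Howie's theorem: if `G / N` is locally indicable and every finite system over
`N` that is nonsingular over the field `k` is solvable over `N`, the same holds over `G`.
(2) Unconditionally: Howie's conjecture holds for abelian-by-(locally indicable) groups.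
(3) For `N` as in (1) with `k = ℚ`, or `N` abelian: every single equation with nontrivial content is
solvable over `G`.
(4) Covering criterion with Fox rows over the group algebra of an arbitrary quotient. -/
theorem result :
    (∀ (k : Type w) [Field k] (G : Type u) [Group G] (N : Subgroup G) [N.Normal],
      LocallyIndicable (G ⧸ N) → HowieOver k N → HowieOver k G) ∧
    (∀ (G : Type u) [Group G] (N : Subgroup G) [N.Normal],
      (∀ a ∈ N, ∀ b ∈ N, a * b = b * a) → LocallyIndicable (G ⧸ N) → HowieOver ℚ G) ∧
    (∀ (G : Type u) [Group G] (N : Subgroup G) [N.Normal], LocallyIndicable (G ⧸ N) →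
      (HowieOver ℚ N ∨ ∀ a ∈ N, ∀ b ∈ N, a * b = b * a) →
      ∀ (X : Type v) (e : Monoid.Coprod G (FreeGroup X)), Monoid.Coprod.snd e ≠ 1 →
        SolvableOver (fun _ : Unit => e)) ∧
    (∀ (k : Type w) [Field k] (G : Type u) [Group G] (Λ : Type v) [Group Λ]
      (I : Type a) (X : Type b) (s : I → Monoid.Coprod G (FreeGroup X))
      (φ : Monoid.Coprod G (FreeGroup X) →* Λ),
      (∃! D : Monoid.Coprod G (FreeGroup X) → (X →₀ MonoidAlgebra k Λ), IsFoxDerivative k φ D) ∧
      ∀ D : Monoid.Coprod G (FreeGroup X) → (X →₀ MonoidAlgebra k Λ), IsFoxDerivative k φ D →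
      (∀ i, φ (s i) = 1) →
      LinearIndependent (MonoidAlgebra k Λ) (fun i => D (s i)) →
      ∀ (N₀ : Subgroup (φ.comp inl).ker) [N₀.Normal],
        LocallyIndicable ((φ.comp inl).ker ⧸ N₀) → HowieOver k N₀ → SolvableOver s) := by
  have ext : ∀ (k : Type w) [Field k] (G : Type u) [Group G] (N : Subgroup G) [N.Normal],
      LocallyIndicable (G ⧸ N) → HowieOver k N → HowieOver k G := by
    intro k _ G _ N _ hQ hN
    have hker : (QuotientGroup.mk' N).ker = N := QuotientGroup.ker_mk' N
    exact howieOver_of_locallyIndicable k hQ (QuotientGroup.mk' N) (hker.symm ▸ hN)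
  have extQ : ∀ (G : Type u) [Group G] (N : Subgroup G) [N.Normal],
      LocallyIndicable (G ⧸ N) → HowieOver ℚ N → HowieOver ℚ G := by
    intro G _ N _ hQ hN
    have hker : (QuotientGroup.mk' N).ker = N := QuotientGroup.ker_mk' N
    exact howieOver_of_locallyIndicable ℚ hQ (QuotientGroup.mk' N) (hker.symm ▸ hN)
  have ab : ∀ (G : Type u) [Group G] (N : Subgroup G) [N.Normal],
      (∀ a ∈ N, ∀ b ∈ N, a * b = b * a) → HowieOver ℚ N := by
    intro G _ N _ hN
    let _ : CommGroup N :=
      { (inferInstance : Group N) with mul_comm := fun a b => Subtype.ext (hN a a.2 b b.2) }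
    exact howieOver_of_comm ℚ N
  refine ⟨ext, ?_, ?_, ?_⟩
  · intro G _ N _ hN hQ
    exact extQ G N hQ (ab G N hN)
  · intro G _ N _ hQ hN X e hc
    have hNk : HowieOver ℚ N := by
      rcases hN with h | h
      · exact h
      · exact ab G N h
    exact solvableOver_of_content_ne_one (extQ G N hQ hNk) e hc
  · intro k _ G _ Λ _ I X s φ
    refine ⟨⟨_, isFoxDerivative_foxD k φ, fun D hD => hD.unique (isFoxDerivative_foxD k φ)⟩, ?_⟩
    intro D hD hφ hli N₀ _ hQ hN₀
    have hD' : D = foxD k (φ.comp inl) fun x => φ (inr (FreeGroup.of x)) :=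
      hD.unique (isFoxDerivative_foxD k φ)
    have hker : (QuotientGroup.mk' N₀).ker = N₀ := QuotientGroup.ker_mk' N₀
    have hN : HowieOver k (φ.comp inl).ker :=
      howieOver_of_locallyIndicable k hQ (QuotientGroup.mk' N₀) (hker.symm ▸ hN₀)
    apply solvableOver_of_fox k (φ.comp inl) (fun x => φ (inr (FreeGroup.of x))) s
    · intro i
      rw [lift_comp_eq]
      exact hφ i
    · rw [← hD']
      exact hli
    · exact hN

end Vale.Agent.Results.P174.Combined
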