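import Vale.Agent.Lib.P174.Content
import Vale.Agent.Lib.P174.Abelian

namespace Vale.Agent.Results.P174.ContentNontrivial

open Vale.Agent.Lib.P174 Monoid.Coprod

universe u v

/-- Let `N` be a normal subgroup of `G` with `G / N` locally indicable, and suppose that every
nonsingular finite system over `N` is solvable over `N` (Howie's conjecture for `N`); this holds
unconditionally if `N` is abelian.  Then every single equation `w = 1`, `w ∈ G ∗ F(X)`, whose
content (the image of `w` in the free group `F(X)` after deleting the coefficients) is nontrivial
is solvable over `G`, whatever the exponent sums of `w` are. -/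
theorem result (G : Type u) [Group G] (N : Subgroup G) [N.Normal]
    (hQ : LocallyIndicable (G ⧸ N))
    (hN : HowieOver ℚ N ∨ ∀ a ∈ N, ∀ b ∈ N, a * b = b * a)
    (X : Type v) (w : Monoid.Coprod G (FreeGroup X)) (hc : Monoid.Coprod.snd w ≠ 1) :
    Function.Injective
      ((QuotientGroup.mk' (Subgroup.normalClosure {w})).comp
        (inl : G →* Monoid.Coprod G (FreeGroup X))) := by
  have hNk : HowieOver ℚ N := by
    rcases hN with h | h
    · exact h
    · let _ : CommGroup N :=
        { (inferInstance : Group N) with mul_comm := fun a b => Subtype.ext (h a a.2 b b.2) }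
      exact howieOver_of_comm ℚ N
  have hker : (QuotientGroup.mk' N).ker = N := QuotientGroup.ker_mk' N
  have hG : HowieOver ℚ G :=
    howieOver_of_locallyIndicable ℚ hQ (QuotientGroup.mk' N) (hker.symm ▸ hNk)
  have h1 := (solvableOver_iff_injective _).1 (solvableOver_of_content_ne_one hG w hc)
  have h2 : Set.range (fun _ : Unit => w) = {w} := by
    ext y
    simp [eq_comm]
  rw [h2] at h1
  exact h1

end Vale.Agent.Results.P174.ContentNontrivial
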