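import Vale.Agent.Lib.P174.Fox
import Vale.Agent.Lib.P174.LocInd

namespace Vale.Agent.Results.P174.CoveringCriterion

open Vale.Agent.Lib.P174 Monoid.Coprod

universe u v w a b

/-- Covering criterion.  Let `w` be a (finite or infinite) system over `G` in the unknowns `X`, and
let `φ : G ∗ F(X) → Λ` be any homomorphism that kills every `w i`.  There is exactly one Fox
derivative `D : G ∗ F(X) → k[Λ]^(X)` relative to `G`.  If the Fox rows `D (w i)` are left linearly
independent over the group algebra `k[Λ]`, and `N = ker (φ|G)` has a normal subgroup `N₀` with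
`N / N₀` locally indicable such that every finite `k`-nonsingular system over `N₀` is solvable over
`N₀`, then `w` is solvable over `G`. -/
theorem result (k : Type w) [Field k] (G : Type u) [Group G] (Λ : Type v) [Group Λ]
    (I : Type a) (X : Type b) (w : I → Monoid.Coprod G (FreeGroup X))
    (φ : Monoid.Coprod G (FreeGroup X) →* Λ) :
    (∃! D : Monoid.Coprod G (FreeGroup X) → (X →₀ MonoidAlgebra k Λ), IsFoxDerivative k φ D) ∧
    ∀ D : Monoid.Coprod G (FreeGroup X) → (X →₀ MonoidAlgebra k Λ), IsFoxDerivative k φ D →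
      (∀ i, φ (w i) = 1) →
      LinearIndependent (MonoidAlgebra k Λ) (fun i => D (w i)) →
      ∀ (N₀ : Subgroup (φ.comp inl).ker) [N₀.Normal],
        LocallyIndicable ((φ.comp inl).ker ⧸ N₀) → HowieOver k N₀ → SolvableOver w := by
  refine ⟨⟨_, isFoxDerivative_foxD k φ, fun D hD => hD.unique (isFoxDerivative_foxD k φ)⟩, ?_⟩
  intro D hD hφ hli N₀ _ hQ hN₀
  have hD' : D = foxD k (φ.comp inl) fun x => φ (inr (FreeGroup.of x)) :=
    hD.unique (isFoxDerivative_foxD k φ)
  have hker : (QuotientGroup.mk' N₀).ker = N₀ := QuotientGroup.ker_mk' N₀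
  have hN : HowieOver k (φ.comp inl).ker :=
    howieOver_of_locallyIndicable k hQ (QuotientGroup.mk' N₀) (hker.symm ▸ hN₀)
  apply solvableOver_of_fox k (φ.comp inl) (fun x => φ (inr (FreeGroup.of x))) w
  · intro i
    rw [lift_comp_eq]
    exact hφ i
  · rw [← hD']
    exact hli
  · exact hN

end Vale.Agent.Results.P174.CoveringCriterion
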